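import Vale.Agent.P200f.Semi
import Vale.Agent.P200e.Betti

/-!
Graded Betti numbers along a valuation subring: boundary ranks drop under reduction, and boundary
ranks of lex-plus-powers ideals do not depend on the field.
-/

noncomputable section

namespace Vale.Agent.P200f

open MvPolynomial IsLocalRing Vale.Agent.P200 Vale.Agent.P200b Vale.Agent.P200d
open Vale.Agent.P200e (famOf mem_famOf StabF covSet bR pwP capd finrank_boundaries)
open scoped Classical

universe u

variable {n : ℕ}

theorem boundaries_top (F : Type*) [Field F] (q j : ℕ) :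
    boundaries (⊤ : Ideal (MvPolynomial (Fin n) F)) q j = chains ⊤ q j :=
  le_antisymm (boundaries_le _ q j) le_sup_left

theorem finrank_chains_top (F : Type*) [Field F] (q j : ℕ) :
    Module.finrank F (chains (⊤ : Ideal (MvPolynomial (Fin n) F)) q j) =
      ∑ T : Finset (Fin n), if T.card = q ∧ q ≤ j then n.multichoose (j - q) else 0 := by
  obtain ⟨e⟩ := (finite_pi (K := F) fun T : Finset (Fin n) =>
    if T.card = q ∧ q ≤ j then (⊤ : Ideal (MvPolynomial (Fin n) F)).restrictScalars F ⊓
      homogeneousSubmodule (Fin n) F (j - q) else ⊥).2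
  unfold chains
  rw [e.finrank_eq, Module.finrank_pi_fintype]
  refine Finset.sum_congr rfl fun T _ => ?_
  by_cases h : T.card = q ∧ q ≤ j
  · rw [if_pos h, if_pos h, Submodule.restrictScalars_top, top_inf_eq, finrank_homogeneous]
  · rw [if_neg h, if_neg h, finrank_bot]

theorem bR_eq_covSet (F : Type*) [Field F] (E c q e : ℕ) (A : Finset (Fin n →₀ ℕ))
    (hA : ∀ a ∈ A, a.degree = e ∧ ¬ pwP E c a) (hst : StabF E c A) :
    bR F E c q e A = (covSet E c q e A).card :=
  le_antisymm (P200e.bR_le_covSet c q e A hA hst) (P200e.covSet_le_bR c q e A)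

/-- Monomial ideals with stable complements of the powers have boundary ranks independent of the
field. -/
theorem boundaries_monomial_eq (F F' : Type u) [Field F] [Field F'] {E c : ℕ}
    (U : Set (Fin n →₀ ℕ)) (hU : ∀ a ∈ U, ∀ b, a ≤ b → b ∈ U) (hPU : ∀ a, pwP E c a → a ∈ U)
    {q j : ℕ} (hqj : q ≤ j) (hst : StabF E c (famOf E c (j - q) U)) :
    Module.finrank F (boundaries (Ideal.span ((fun a => monomial a (1 : F)) '' U)) q j) =
      Module.finrank F' (boundaries (Ideal.span ((fun a => monomial a (1 : F')) '' U)) q j) := by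
  have hA : ∀ (W : Set (Fin n →₀ ℕ)), ∀ a ∈ famOf E c (j - q) W,
      a.degree = j - q ∧ ¬ pwP E c a :=
    fun W a ha => ⟨(mem_famOf.1 ha).1, (mem_famOf.1 ha).2.2⟩
  have hall : StabF E c (famOf E c (j - q) (Set.univ : Set (Fin n →₀ ℕ))) := by
    intro a ha i l _ b hb hbP
    refine mem_famOf.2 ⟨?_, Set.mem_univ b, hbP⟩
    have h := congrArg Finsupp.degree hb
    rw [map_add, map_add, Finsupp.degree_single, Finsupp.degree_single, (hA _ a ha).1] at h
    omega
  have htop : ∀ (G : Type u) [Field G],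
      Ideal.span ((fun a => monomial a (1 : G)) '' (Set.univ : Set (Fin n →₀ ℕ))) = ⊤ := by
    intro G _
    exact (Ideal.eq_top_iff_one _).2 (Ideal.subset_span ⟨0, Set.mem_univ _, rfl⟩)
  have h1 := finrank_boundaries (K := F) U hU hPU hqj
  have h2 := finrank_boundaries (K := F') U hU hPU hqj
  have h3 := finrank_boundaries (K := F) (E := E) (c := c) (Set.univ : Set (Fin n →₀ ℕ))
    (fun _ _ _ _ => trivial) (fun _ _ => trivial) hqj
  have h4 := finrank_boundaries (K := F') (E := E) (c := c) (Set.univ : Set (Fin n →₀ ℕ))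
    (fun _ _ _ _ => trivial) (fun _ _ => trivial) hqj
  rw [htop F, boundaries_top, finrank_chains_top, bR_eq_covSet F E c q _ _ (hA _) hall] at h3
  rw [htop F', boundaries_top, finrank_chains_top, bR_eq_covSet F' E c q _ _ (hA _) hall] at h4
  rw [bR_eq_covSet F E c q _ _ (hA _) hst] at h1
  rw [bR_eq_covSet F' E c q _ _ (hA _) hst] at h2
  omega

theorem stabF_inJ {F : Type*} [Field F] (E c e : ℕ) (I : Ideal (MvPolynomial (Fin n) F)) :
    StabF E c (famOf E c e {a | Lex.inJ E c I a}) := by
  intro a ha i l hil b hb hbP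
  obtain ⟨hd, haJ, haP⟩ := mem_famOf.1 ha
  have hbd : b.degree = e := by
    have h := congrArg Finsupp.degree hb
    rw [map_add, map_add, Finsupp.degree_single, Finsupp.degree_single, hd] at h
    omega
  have hab : toLex a < toLex b := by
    refine Finsupp.Lex.lt_iff.2 ⟨i, fun x hx => ?_, ?_⟩
    · have h := DFunLike.congr_fun hb x
      simp [hx.ne, (hx.trans hil).ne] at h
      exact h.symm
    · have h := DFunLike.congr_fun hb i
      simp [hil.ne] at h
      show a i < b i
      omega
  refine mem_famOf.2 ⟨hbd, ?_, hbP⟩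
  rcases haJ with h | h
  · exact absurd h haP
  refine Or.inr ?_
  rw [hbd, ← hd]
  refine lt_of_le_of_lt (Set.ncard_le_ncard ?_ ?_) h
  · rintro x ⟨h1, h2, h3⟩
    exact ⟨h1, h2, hab.trans h3⟩
  · exact (degSet n a.degree).finite_toSet.subset fun x hx => mem_degSet.2 hx.1

/-- In characteristic `p` the lex-plus-powers ideal has the smallest boundary ranks. -/
theorem boundaries_lex_le {F : Type u} [Field F] {p : ℕ} [Fact p.Prime] [CharP F p] {c : ℕ}
    (hc : c ≤ n) (f : Fin c → MvPolynomial (Fin n) F) (hf : ∀ i, (f i).IsHomogeneous p)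
    (hreg : ∀ i g, g * f i ∈ Ideal.span (f '' Set.Iio i) → g ∈ Ideal.span (f '' Set.Iio i))
    (I : Ideal (MvPolynomial (Fin n) F)) (hI : ∀ g ∈ I, ∀ d, homogeneousComponent d g ∈ I)
    (hfI : ∀ i, f i ∈ I) {q j : ℕ} (hqj : q ≤ j) :
    Module.finrank F
        (boundaries (Ideal.span ((fun a => monomial a (1 : F)) '' {a | Lex.inJ p c I a})) q j) ≤
      Module.finrank F (boundaries I q j) := by
  obtain ⟨heq, hHFJ, -⟩ := P200e.result hc f hf hreg I hI hfI
  have hJup : ∀ a ∈ {a | Lex.inJ p c I a}, ∀ b, a ≤ b → b ∈ {a | Lex.inJ p c I a} := by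
    intro a ha b hab
    have h : monomial b (1 : F) ∈
        Ideal.span ((fun a => monomial a (1 : F)) '' {a | Lex.inJ p c I a}) :=
      mem_ideal_span_monomial_image.2 fun x hx => by
        rw [support_monomial, if_neg one_ne_zero, Finset.mem_singleton] at hx
        exact ⟨a, ha, hx ▸ hab⟩
    have h' : monomial b (1 : F) ∈ restrictSupport F {a | Lex.inJ p c I a} := by
      rw [restrictSupport_eq_span]
      exact heq.le h
    rw [mem_restrictSupport_iff, support_monomial, if_neg one_ne_zero] at h'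
    exact h' (Finset.mem_singleton_self b)
  obtain ⟨U, hUup, hUpw, hUcount, hUb⟩ := P200e.exists_model hc f hf hreg I hfI
  refine le_trans ?_ (hUb q j)
  have hPU : ∀ a, pwP p c a → a ∈ U := by
    rintro a ⟨i, hi, hai⟩
    refine hUup _ (hUpw ⟨i, hi⟩) _ ?_
    rw [show Fin.castLE hc ⟨i, hi⟩ = i from Fin.ext rfl]
    exact Finsupp.single_le_iff.2 hai
  have hPJ : ∀ a, pwP p c a → a ∈ {a | Lex.inJ p c I a} := fun a ha => Or.inl ha
  rw [finrank_boundaries _ hJup hPJ hqj, finrank_boundaries _ hUup hPU hqj]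
  refine Nat.add_le_add_right ?_ _
  set e := j - q
  have hcard : ∀ W : Set (Fin n →₀ ℕ), (∀ a, pwP p c a → a ∈ W) →
      {a ∈ W | a.degree = e}.ncard =
        (famOf p c e W).card + ((degSet n e).filter (pwP p c)).card := by
    intro W hW
    rw [← Finset.card_union_of_disjoint, ← Set.ncard_coe_finset]
    · congr 1
      ext a
      simp only [Finset.coe_union, Set.mem_union, Finset.mem_coe, mem_famOf, Finset.mem_filter,
        mem_degSet, Set.mem_ofPred_eq]
      constructor
      · rintro ⟨h1, h2⟩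
        by_cases h : pwP p c a
        · exact Or.inr ⟨h2, h⟩
        · exact Or.inl ⟨h2, h1, h⟩
      · rintro (⟨h1, h2, -⟩ | ⟨h1, h2⟩)
        · exact ⟨h2, h1⟩
        · exact ⟨hW a h2, h1⟩
    · exact Finset.disjoint_left.2 fun a h1 h2 =>
        (mem_famOf.1 h1).2.2 (Finset.mem_filter.1 h2).2
  have hcardeq : (famOf p c e U).card = (famOf p c e {a | Lex.inJ p c I a}).card := by
    have h1 := hUcount e
    rw [hcard U hPU] at h1
    have h2 := hHFJ e
    rw [Vale.Agent.P200b.Result.monomial_hilbert _ hJup, hcard _ hPJ] at h2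
    change _ = Module.finrank F (piece I e) at h2
    omega
  refine P200e.bR_seg_le (κ := Lex.cap p c e) (Lex.cap_mono p c e)
    (fun l hl => if_pos hl) q e (fun a => Lex.mem_box_cap (Nat.le_succ e)) _ _
    (fun a ha => ⟨(mem_famOf.1 ha).1, (mem_famOf.1 ha).2.2⟩)
    (fun a ha => ⟨(mem_famOf.1 ha).1, (mem_famOf.1 ha).2.2⟩) ?_ hcardeq
  intro a ha b hb hbP hab
  obtain ⟨hd, haJ, haP⟩ := mem_famOf.1 ha
  refine mem_famOf.2 ⟨hb, ?_, hbP⟩
  rcases haJ with h | h
  · exact absurd h haP
  refine Or.inr ?_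
  rw [hb, ← hd]
  refine lt_of_le_of_lt (Set.ncard_le_ncard ?_ ?_) h
  · rintro x ⟨h1, h2, h3⟩
    exact ⟨h1, h2, hab.trans h3⟩
  · exact (degSet n a.degree).finite_toSet.subset fun x hx => mem_degSet.2 hx.1

/-- The coefficients of a chain. -/
def chainCoeff (F : Type*) [Field F] (n q e : ℕ) :
    (Finset (Fin n) → MvPolynomial (Fin n) F) →ₗ[F]
      ({T : Finset (Fin n) // T.card = q} × {a : Fin n →₀ ℕ // a.degree = e} → F) :=
  LinearMap.pi fun x => lcoeff F x.2.1 ∘ₗ LinearMap.proj x.1.1

theorem finrank_map_chainCoeff {F : Type*} [Field F] {q j : ℕ} (hqj : q ≤ j)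
    (B : Submodule F (Finset (Fin n) → MvPolynomial (Fin n) F)) (hB : B ≤ chains ⊤ q j) :
    Module.finrank F ↥(B.map (chainCoeff F n q (j - q))) = Module.finrank F ↥B := by
  have hinj : Function.Injective ((chainCoeff F n q (j - q)).domRestrict B) := by
    rintro ⟨x, hx⟩ ⟨y, hy⟩ h
    refine Subtype.ext (funext fun T => ?_)
    by_cases hT : T.card = q
    · exact eq_of_coeff ((mem_chains.1 (hB hx) T).1 ⟨hT, hqj⟩).2
        ((mem_chains.1 (hB hy) T).1 ⟨hT, hqj⟩).2
        fun a ha => congrFun h (⟨T, hT⟩, ⟨a, ha⟩)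
    · show x T = y T
      rw [(mem_chains.1 (hB hx) T).2 (fun h' => hT h'.1),
        (mem_chains.1 (hB hy) T).2 (fun h' => hT h'.1)]
  rw [← LinearMap.range_domRestrict, LinearMap.finrank_range_of_inj hinj]

variable {K : Type u} [Field K] (V : ValuationSubring K)

theorem koszul_map {R F : Type*} [CommRing R] [Field F] (θ : R →+* F)
    (ψ : Finset (Fin n) → MvPolynomial (Fin n) R) (T : Finset (Fin n)) :
    koszul (fun S => map θ (ψ S)) T = map θ (∑ i ∈ Tᶜ,
      (-1 : MvPolynomial (Fin n) R) ^ (T.filter (· < i)).card * X i * ψ (insert i T)) := by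
  rw [map_sum]
  refine Finset.sum_congr rfl fun i _ => ?_
  simp

/-- Reduction does not increase boundary ranks. -/
theorem boundaries_red_le {I : Ideal (MvPolynomial (Fin n) K)}
    (hI : ∀ g ∈ I, ∀ d, homogeneousComponent d g ∈ I) {q j : ℕ} (hqj : q ≤ j) :
    Module.finrank (ResidueField V) (boundaries (redIdeal V I) q j) ≤
      Module.finrank K (boundaries I q j) := by
  rw [← finrank_map_chainCoeff hqj _ (boundaries_le _ q j),
    ← finrank_map_chainCoeff hqj _ (boundaries_le I q j), ← finrank_redSub V]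
  refine Submodule.finrank_mono ?_
  rintro _ ⟨b, hb, rfl⟩
  obtain ⟨φ, hφ, η, hη, rfl⟩ := Submodule.mem_sup.1 hb
  obtain ⟨ψ, hψ, rfl⟩ := hη
  have hφl : ∀ T, ∃ g : MvPolynomial (Fin n) V,
      red V g = φ T ∧ incl V g ∈ I ∧ g.IsHomogeneous (j - q) ∧
        (¬(T.card = q ∧ q ≤ j) → g = 0) := by
    intro T
    by_cases hT : T.card = q ∧ q ≤ j
    · obtain ⟨hTI, hTd⟩ := (mem_chains.1 hφ T).1 hT
      obtain ⟨g, hg, hgT⟩ := (mem_redIdeal V).1 hTI
      refine ⟨homogeneousComponent (j - q) g, ?_, ?_, homogeneousComponent_isHomogeneous _ _,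
        fun h => absurd hT h⟩
      · rw [red, ← homogeneousComponent_map, hgT, homogeneousComponent_of_mem hTd, if_pos rfl]
      · rw [incl, ← homogeneousComponent_map]
        exact hI _ hg _
    · exact ⟨0, by rw [map_zero, (mem_chains.1 hφ T).2 hT], by rw [map_zero]; exact zero_mem I,
        isHomogeneous_zero _ _ _, fun _ => rfl⟩
  have hψl : ∀ T, ∃ g : MvPolynomial (Fin n) V,
      red V g = ψ T ∧ g.IsHomogeneous (j - (q + 1)) ∧
        (¬(T.card = q + 1 ∧ q + 1 ≤ j) → g = 0) := by
    intro T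
    by_cases hT : T.card = q + 1 ∧ q + 1 ≤ j
    · obtain ⟨-, hTd⟩ := (mem_chains.1 hψ T).1 hT
      obtain ⟨g, hgT⟩ := map_surjective (residue V) residue_surjective (ψ T)
      refine ⟨homogeneousComponent (j - (q + 1)) g, ?_, homogeneousComponent_isHomogeneous _ _,
        fun h => absurd hT h⟩
      rw [red, ← homogeneousComponent_map, hgT, homogeneousComponent_of_mem hTd, if_pos rfl]
    · exact ⟨0, by rw [map_zero, (mem_chains.1 hψ T).2 hT], isHomogeneous_zero _ _ _, fun _ => rfl⟩
  choose φ' hφ'r hφ'I hφ'd hφ'0 using hφl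
  choose ψ' hψ'r hψ'd hψ'0 using hψl
  set Φ : Finset (Fin n) → MvPolynomial (Fin n) V := fun T =>
    φ' T + ∑ i ∈ Tᶜ, (-1 : MvPolynomial (Fin n) V) ^ (T.filter (· < i)).card * X i *
      ψ' (insert i T)
  refine ⟨fun x => coeff x.2.1 (Φ x.1.1),
    ⟨(fun S => incl V (φ' S)) + koszul (fun S => incl V (ψ' S)),
      Submodule.add_mem_sup (mem_chains.2 fun T => ⟨fun hT => ⟨hφ'I T, (hφ'd T).map _⟩,
          fun hT => by rw [hφ'0 T hT, map_zero]⟩)
        ⟨_, mem_chains.2 fun T => ⟨fun hT => ⟨Submodule.mem_top, (hψ'd T).map _⟩,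
          fun hT => by rw [hψ'0 T hT, map_zero]⟩, rfl⟩, ?_⟩, fun x => ?_⟩
  · funext x
    show coeff x.2.1 (incl V (φ' x.1.1) + koszul (fun S => incl V (ψ' S)) x.1.1) = _
    rw [koszul_map V.subtype ψ', ← map_add]
    exact coeff_map V.subtype _ _
  · show residue V (coeff x.2.1 (Φ x.1.1)) =
      coeff x.2.1 (φ x.1.1 + koszul ψ x.1.1)
    rw [show ψ = fun S => map (residue V) (ψ' S) from funext fun S => (hψ'r S).symm,
      koszul_map (residue V) ψ', ← hφ'r x.1.1, red, ← map_add]
    exact (coeff_map (residue V) _ _).symm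

/-- EGH and the lex-plus-powers bound along a valuation subring of residue characteristic `p`. -/
theorem lpp_of_reduction {p : ℕ} [Fact p.Prime] (hp : residue V (p : V) = 0) {c : ℕ} (hc : c ≤ n)
    (F : Fin c → MvPolynomial (Fin n) V) (hF : ∀ i, (F i).IsHomogeneous p)
    (hreg : ∀ i g, g * red V (F i) ∈ Ideal.span ((fun t => red V (F t)) '' Set.Iio i) →
      g ∈ Ideal.span ((fun t => red V (F t)) '' Set.Iio i))
    (I : Ideal (MvPolynomial (Fin n) K)) (hI : ∀ g ∈ I, ∀ d, homogeneousComponent d g ∈ I)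
    (hFI : ∀ i, incl V (F i) ∈ I) :
    (Ideal.span ((fun a => monomial a (1 : K)) '' {a | Lex.inJ p c I a})).restrictScalars K =
        Lex.lexPP p c I ∧
      (∀ d, Module.finrank K
          ↥((Ideal.span ((fun a => monomial a (1 : K)) '' {a | Lex.inJ p c I a})).restrictScalars K ⊓
            homogeneousSubmodule (Fin n) K d) =
        Module.finrank K ↥(I.restrictScalars K ⊓ homogeneousSubmodule (Fin n) K d)) ∧
      ∀ q j : ℕ, betti I q j ≤
        betti (Ideal.span ((fun a => monomial a (1 : K)) '' {a | Lex.inJ p c I a})) q j := by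
  obtain ⟨hmul, hHF⟩ := lex_of_reduction V hp hc F hF hreg I hI hFI
  set J := {a | Lex.inJ p c I a} with hJ
  set JI := Ideal.span ((fun a => monomial a (1 : K)) '' J)
  have hlex : Lex.lexPP p c I = restrictSupport K J := (restrictSupport_eq_span K _).symm
  have hJup : ∀ a ∈ J, ∀ b, a ≤ b → b ∈ J := by
    intro a ha b hab
    have h := hmul (monomial (b - a) 1) (monomial a 1) (Submodule.subset_span ⟨a, ha, rfl⟩)
    rw [monomial_mul, mul_one, tsub_add_cancel_of_le hab, hlex, mem_restrictSupport_iff,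
      support_monomial, if_neg one_ne_zero] at h
    exact h (Finset.mem_singleton_self b)
  have heq : JI.restrictScalars K = Lex.lexPP p c I := by
    rw [P200e.monomial_ideal_eq _ hJup, hlex]
  have hHFJ : ∀ d, Module.finrank K ↥(JI.restrictScalars K ⊓ homogeneousSubmodule (Fin n) K d) =
      Module.finrank K ↥(I.restrictScalars K ⊓ homogeneousSubmodule (Fin n) K d) := fun d => by
    rw [heq]; exact hHF d
  refine ⟨heq, hHFJ, fun q j => ?_⟩
  refine betti_le_of_boundaries _ _ j (fun d => (hHFJ d).symm) (fun q => ?_) q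
  by_cases hqj : q ≤ j
  swap
  · have h0 : boundaries JI q j = ⊥ := by
      refine eq_bot_iff.2 fun φ hφ => ?_
      rw [Submodule.mem_bot]
      funext T
      exact (mem_chains.1 (boundaries_le _ q j hφ) T).2 (fun h' => hqj h'.2)
    rw [h0, finrank_bot]
    exact Nat.zero_le _
  have : CharP (ResidueField V) p :=
    (CharP.charP_iff_prime_eq_zero Fact.out).2 (by rw [← map_natCast (residue V), hp])
  have hJk : {a | Lex.inJ p c (redIdeal V I) a} = J := by
    ext a
    have hadd : ∀ d, Lex.addCount p c (redIdeal V I) d = Lex.addCount p c I d := fun d => by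
      show Module.finrank (ResidueField V) ↥(piece (redIdeal V I) d) - _ =
        Module.finrank K ↥(piece I d) - _
      rw [finrank_redIdeal V hI d]
    simp only [hJ, Set.mem_ofPred_eq, Lex.inJ, hadd]
  have h1 := boundaries_lex_le hc (fun i => red V (F i)) (fun i => (hF i).map _) hreg
    (redIdeal V I) (redIdeal_hom V hI) (fun i => (mem_redIdeal V).2 ⟨F i, hFI i, rfl⟩) hqj
  rw [hJk, ← boundaries_monomial_eq K (ResidueField V) (E := p) (c := c) J hJup
    (fun a ha => Or.inl ha) hqj (stabF_inJ p c (j - q) I)] at h1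
  exact h1.trans (boundaries_red_le V hI hqj)

end Vale.Agent.P200f
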