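import Vale.Agent.P200f.Betti

/-!
Forms with algebraically independent coefficients reduce, along a suitable valuation subring, to
pure powers of variables in residue characteristic `p`.
-/

noncomputable section

namespace Vale.Agent.P200f

open MvPolynomial IsLocalRing Vale.Agent.P200

universe u

variable {n c : ℕ}

theorem powers_regular {k : Type*} [Field k] (p : ℕ) (hc : c ≤ n) (i : Fin c)
    (g : MvPolynomial (Fin n) k)
    (hg : g * X (Fin.castLE hc i) ^ p ∈
      Ideal.span ((fun t => (X (Fin.castLE hc t) : MvPolynomial (Fin n) k) ^ p) '' Set.Iio i)) :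
    g ∈ Ideal.span ((fun t => (X (Fin.castLE hc t) : MvPolynomial (Fin n) k) ^ p) '' Set.Iio i) := by
  classical
  have e : (fun t => (X (Fin.castLE hc t) : MvPolynomial (Fin n) k) ^ p) '' Set.Iio i =
      (fun a => monomial a (1 : k)) ''
        ((fun t : Fin c => Finsupp.single (Fin.castLE hc t) p) '' Set.Iio i) := by
    rw [Set.image_image]
    exact Set.image_congr fun t _ => X_pow_eq_monomial
  rw [e, mem_ideal_span_monomial_image] at hg ⊢
  intro a ha
  have h : a + Finsupp.single (Fin.castLE hc i) p ∈ (g * X (Fin.castLE hc i) ^ p).support := by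
    rw [X_pow_eq_monomial, MvPolynomial.mem_support_iff, coeff_mul_monomial, mul_one]
    exact MvPolynomial.mem_support_iff.1 ha
  obtain ⟨_, ⟨t, ht, rfl⟩, hle⟩ := hg _ h
  refine ⟨_, ⟨t, ht, rfl⟩, Finsupp.single_le_iff.2 ?_⟩
  have h2 := Finsupp.single_le_iff.1 hle
  rw [Finsupp.add_apply, Finsupp.single_apply, if_neg] at h2
  · simpa using h2
  · exact fun he => (ne_of_lt ht) (Fin.castLE_injective hc he).symm

/-- The coefficients of `c` forms of degree `p`. -/
abbrev Idx (n c p : ℕ) : Type := {x : Fin c × (Fin n →₀ ℕ) // x.2.degree = p}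

/-- EGH and the lex-plus-powers bound for forms of degree `p` with algebraically independent
coefficients. -/
theorem lpp_of_generic {K : Type u} [Field K] {p : ℕ} [Fact p.Prime] (hc : c ≤ n)
    (f : Fin c → MvPolynomial (Fin n) K) (hf : ∀ i, (f i).IsHomogeneous p)
    (hgen : AlgebraicIndependent ℤ fun x : Idx n c p => coeff x.1.2 (f x.1.1))
    (I : Ideal (MvPolynomial (Fin n) K)) (hI : ∀ q ∈ I, ∀ d, homogeneousComponent d q ∈ I)
    (hfI : ∀ i, f i ∈ I) :
    (Ideal.span ((fun a => monomial a (1 : K)) '' {a | P200d.Lex.inJ p c I a})).restrictScalars K =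
        P200d.Lex.lexPP p c I ∧
      (∀ d, Module.finrank K
          ↥((Ideal.span ((fun a => monomial a (1 : K)) '' {a | P200d.Lex.inJ p c I a})).restrictScalars K ⊓
            homogeneousSubmodule (Fin n) K d) =
        Module.finrank K ↥(I.restrictScalars K ⊓ homogeneousSubmodule (Fin n) K d)) ∧
      ∀ q j : ℕ, P200b.betti I q j ≤ P200b.betti
        (Ideal.span ((fun a => monomial a (1 : K)) '' {a | P200d.Lex.inJ p c I a})) q j := by
  classical
  set φ : MvPolynomial (Idx n c p) ℤ →+* K :=
    (aeval fun x : Idx n c p => coeff x.1.2 (f x.1.1)).toRingHom with hφ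
  have hφi : Function.Injective φ := hgen
  set tgt : Idx n c p → ZMod p :=
    fun x => if x.1.2 = Finsupp.single (Fin.castLE hc x.1.1) p then 1 else 0
  set θ : MvPolynomial (Idx n c p) ℤ →+* ZMod p := eval₂Hom (Int.castRingHom _) tgt with hθ
  set A : Subring K := φ.range
  set e : MvPolynomial (Idx n c p) ℤ ≃+* A :=
    RingEquiv.ofBijective φ.rangeRestrict
      ⟨fun a b h => hφi (congrArg Subtype.val h), φ.rangeRestrict_surjective⟩
  set M : Ideal A := RingHom.ker (θ.comp e.symm.toRingHom)
  obtain ⟨V, hAV, hMV⟩ := Ideal.image_subset_nonunits_valuationSubring M (RingHom.ker_ne_top _)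
  have hres : ∀ q, ∃ h : φ q ∈ V, θ q = 0 → residue V ⟨φ q, h⟩ = 0 := fun q => by
    refine ⟨hAV ⟨q, rfl⟩, fun h0 => ?_⟩
    have hm : (e q) ∈ M := by
      show θ (e.symm (e q)) = 0
      rw [e.symm_apply_apply]; exact h0
    have h1 : φ q ∈ (V.nonunits : Set K) := hMV ⟨e q, hm, rfl⟩
    rw [residue_eq_zero_iff]
    rw [← V.image_maximalIdeal] at h1
    obtain ⟨v, hv, hvq⟩ := h1
    rwa [show (⟨φ q, hAV ⟨q, rfl⟩⟩ : V) = v from Subtype.ext hvq.symm]
  have hmem : ∀ (i : Fin c) a, coeff a (f i) ∈ V := by
    intro i a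
    by_cases ha : a.degree = p
    · have h := (hres (X ⟨(i, a), ha⟩)).1
      simpa [hφ] using h
    · rw [(hf i).coeff_eq_zero ha]; exact zero_mem V
  have hp : residue V (p : V) = 0 := by
    obtain ⟨h, h'⟩ := hres (p : MvPolynomial (Idx n c p) ℤ)
    rw [← h' (by simp [hθ])]
    congr 1
    exact Subtype.ext (map_natCast φ p).symm
  have hF : ∀ i, ∃ F : MvPolynomial (Fin n) V, map V.subtype F = f i := by
    intro i
    have h : f i ∈ Set.range (map V.subtype : MvPolynomial (Fin n) V → _) := by
      rw [Set.mem_range]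
      refine ⟨∑ a ∈ (f i).support, monomial a ⟨coeff a (f i), hmem i a⟩, ?_⟩
      rw [map_sum]
      simp only [map_monomial]
      exact (f i).as_sum.symm
    exact h
  choose F hF using hF
  have hFinj : Function.Injective V.subtype := Subtype.val_injective
  have hFc : ∀ i a, ((coeff a (F i) : V) : K) = coeff a (f i) := fun i a => by
    rw [← hF i]; exact (coeff_map V.subtype (F i) a).symm
  have hFd : ∀ i, (F i).IsHomogeneous p := fun i =>
    IsHomogeneous.of_map hFinj (by rw [hF i]; exact hf i)
  have hred : ∀ i, red V (F i) = X (Fin.castLE hc i) ^ p := by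
    intro i
    refine eq_of_coeff ((hFd i).map _) (isHomogeneous_X_pow _ _) fun a ha => ?_
    rw [coeff_X_pow]
    refine Eq.trans (coeff_map (residue V) (F i) a) ?_
    set x : Idx n c p := ⟨(i, a), ha⟩
    by_cases hax : Finsupp.single (Fin.castLE hc i) p = a
    · rw [if_pos hax]
      obtain ⟨h, h'⟩ := hres (X x - 1)
      have h'' := h' (by simp [hθ, tgt, x, hax])
      have : (⟨φ (X x - 1), h⟩ : V) = coeff a (F i) - 1 :=
        Subtype.ext (by simp [hφ, x, hFc])
      rw [this, map_sub, map_one, sub_eq_zero] at h''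
      exact h''
    · rw [if_neg hax]
      obtain ⟨h, h'⟩ := hres (X x)
      have h'' := h' (by simp [hθ, tgt, x, Ne.symm hax])
      have : (⟨φ (X x), h⟩ : V) = coeff a (F i) := Subtype.ext (by simp [hφ, x, hFc])
      rw [this] at h''
      exact h''
  refine lpp_of_reduction V hp hc F hFd ?_ I hI fun i => by rw [incl, hF i]; exact hfI i
  intro i g hg
  simp only [hred] at hg ⊢
  exact powers_regular p hc i g hg

end Vale.Agent.P200f
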