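import Mathlib

/-!
Reductions of subspaces along a valuation subring: the lattice of integral points of a subspace of
`K^σ` reduces to a subspace of the same dimension over the residue field.
-/

noncomputable section

namespace Vale.Agent.P200f

open IsLocalRing

variable {K : Type*} [Field K] (V : ValuationSubring K) {σ : Type*} [Finite σ]

/-- The reductions of the integral points of `W`. -/
def redSub (W : Submodule K (σ → K)) : Submodule (ResidueField V) (σ → ResidueField V) where
  carrier := {u | ∃ v : σ → V, (fun j => (v j : K)) ∈ W ∧ ∀ j, residue V (v j) = u j}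
  zero_mem' := ⟨0, W.zero_mem, fun _ => map_zero _⟩
  add_mem' := by
    rintro a b ⟨v, hv, hva⟩ ⟨w, hw, hwb⟩
    refine ⟨v + w, ?_, fun j => by simp [hva, hwb]⟩
    have h := W.add_mem hv hw
    convert h using 1
    funext j; simp
  smul_mem' := by
    rintro r a ⟨v, hv, hva⟩
    obtain ⟨s, rfl⟩ := residue_surjective r
    refine ⟨fun j => s * v j, ?_, fun j => by simp [hva]⟩
    have h := W.smul_mem (s : K) hv
    convert h using 1
    funext j; simp

omit [Finite σ] in
theorem mem_redSub {W : Submodule K (σ → K)} {u : σ → ResidueField V} :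
    u ∈ redSub V W ↔ ∃ v : σ → V, (fun j => (v j : K)) ∈ W ∧ ∀ j, residue V (v j) = u j := Iff.rfl

theorem exists_pivot {v : σ → K} (hv : v ≠ 0) : ∃ j, v j ≠ 0 ∧ ∀ i, v i / v j ∈ V := by
  classical
  have := Fintype.ofFinite σ
  obtain ⟨i₀, hi₀⟩ := Function.ne_iff.1 hv
  obtain ⟨j, -, hj⟩ := Finset.exists_max_image Finset.univ (fun i => V.valuation (v i))
    ⟨i₀, Finset.mem_univ i₀⟩
  have hj0 : v j ≠ 0 := by
    intro h
    have := hj i₀ (Finset.mem_univ _)
    rw [h, map_zero, le_zero_iff, map_eq_zero] at this
    exact hi₀ this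
  refine ⟨j, hj0, fun i => ?_⟩
  rw [← V.valuation_le_one_iff, map_div₀]
  exact div_le_one_of_le₀ (hj i (Finset.mem_univ _)) zero_le

/-- Reduction preserves the dimension. -/
theorem finrank_redSub (W : Submodule K (σ → K)) :
    Module.finrank (ResidueField V) (redSub V W) = Module.finrank K W := by
  generalize hk : Module.finrank K W = k
  induction k using Nat.strong_induction_on generalizing W with
  | _ k ih =>
  by_cases hW : W = ⊥
  · subst hW
    have : redSub V (⊥ : Submodule K (σ → K)) = ⊥ := by
      refine eq_bot_iff.2 fun u => ?_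
      rintro ⟨v, hv, hvu⟩
      funext j
      have h := congrFun ((Submodule.mem_bot K).1 hv) j
      have : v j = 0 := Subtype.ext h
      rw [← hvu j, this, map_zero]
      rfl
    rw [this, finrank_bot, ← hk, finrank_bot]
  obtain ⟨v₀, hv₀, hv₀0⟩ := (Submodule.ne_bot_iff W).1 hW
  obtain ⟨j, hj, hdiv⟩ := exists_pivot V hv₀0
  set w : σ → V := fun i => ⟨v₀ i / v₀ j, hdiv i⟩ with hw
  have hwW : (fun i => (w i : K)) ∈ W := by
    convert W.smul_mem (v₀ j)⁻¹ hv₀ using 1
    funext i
    simp [hw, div_eq_inv_mul]
  have hwj : w j = 1 := Subtype.ext (div_self hj)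
  set W' : Submodule K (σ → K) := W ⊓ LinearMap.ker (LinearMap.proj j) with hW'
  have hsup : W = W' ⊔ Submodule.span K {fun i => (w i : K)} := by
    refine le_antisymm (fun v hv => ?_)
      (sup_le inf_le_left ((Submodule.span_singleton_le_iff_mem _ _).2 hwW))
    have h : v = (v - v j • fun i => (w i : K)) + v j • fun i => (w i : K) := by abel
    rw [h]
    refine Submodule.add_mem_sup ⟨W.sub_mem hv (W.smul_mem _ hwW), ?_⟩
      (Submodule.smul_mem _ _ (Submodule.mem_span_singleton_self _))
    simp [hwj]
  have hdisj : W' ⊓ Submodule.span K {fun i => (w i : K)} = ⊥ := by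
    refine eq_bot_iff.2 fun v hv => ?_
    obtain ⟨a, rfl⟩ := Submodule.mem_span_singleton.1 hv.2
    have h : (a • fun i => (w i : K)) j = 0 := hv.1.2
    simp [hwj] at h
    simp [h]
  have hw0 : (fun i => (w i : K)) ≠ 0 := fun h => by
    have := congrFun h j
    simp [hwj] at this
  have hk' : Module.finrank K W' + 1 = k := by
    have h := Submodule.finrank_sup_add_finrank_inf_eq W' (Submodule.span K {fun i => (w i : K)})
    rw [← hsup, hdisj, finrank_bot, finrank_span_singleton hw0, hk] at h
    omega
  set u : σ → ResidueField V := fun i => residue V (w i)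
  have hsupk : redSub V W = redSub V W' ⊔ Submodule.span (ResidueField V) {u} := by
    refine le_antisymm ?_ (sup_le ?_ ((Submodule.span_singleton_le_iff_mem _ _).2
      ⟨w, hwW, fun i => rfl⟩))
    · rintro x ⟨v, hv, hvx⟩
      have hx : x = (fun i => residue V (v i - v j * w i)) + residue V (v j) • u := by
        funext i
        simp [u, hvx]
      rw [hx]
      refine Submodule.add_mem_sup ⟨fun i => v i - v j * w i, ⟨?_, ?_⟩, fun i => rfl⟩
        (Submodule.smul_mem _ _ (Submodule.mem_span_singleton_self _))
      · convert W.sub_mem hv (W.smul_mem (v j : K) hwW) using 2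
        rfl
      · simp [hwj]
    · rintro x ⟨v, hv, hvx⟩
      exact ⟨v, hv.1, hvx⟩
  have hdisjk : redSub V W' ⊓ Submodule.span (ResidueField V) {u} = ⊥ := by
    refine eq_bot_iff.2 fun x hx => ?_
    obtain ⟨a, rfl⟩ := Submodule.mem_span_singleton.1 hx.2
    obtain ⟨v, hv, hvx⟩ := hx.1
    have h1 : v j = 0 := Subtype.ext hv.2
    have h2 := hvx j
    simp [u, hwj, h1] at h2
    simp [← h2]
  have hu0 : u ≠ 0 := fun h => by
    have := congrFun h j
    simp [u, hwj] at this
  have h := Submodule.finrank_sup_add_finrank_inf_eq (redSub V W') (Submodule.span (ResidueField V) {u})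
  rw [← hsupk, hdisjk, finrank_bot, finrank_span_singleton hu0, ih _ (by omega) W' rfl] at h
  omega

end Vale.Agent.P200f
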