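import Vale.Agent.P200d.Lex
import Vale.Agent.P200f.Lattice

/-!
The Eisenbud-Green-Harris statement for forms of prime degree `p` over a field with a valuation
subring of residue characteristic `p` along which they reduce to a regular sequence.
-/

noncomputable section

namespace Vale.Agent.P200f

open MvPolynomial IsLocalRing Vale.Agent.P200 Vale.Agent.P200d

universe u

variable {n : ℕ}

/-- The coefficients in degree `d`. -/
def coeffMap (R : Type*) [Field R] (n d : ℕ) :
    MvPolynomial (Fin n) R →ₗ[R] ({a : Fin n →₀ ℕ // a.degree = d} → R) :=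
  LinearMap.pi fun a => lcoeff R a.1

instance degree_finite (n d : ℕ) : Finite {a : Fin n →₀ ℕ // a.degree = d} :=
  Finite.of_equiv (degSet n d) (Equiv.subtypeEquivRight fun _ => mem_degSet)

theorem eq_of_coeff {R : Type*} [CommRing R] {d : ℕ} {p q : MvPolynomial (Fin n) R}
    (hp : p.IsHomogeneous d) (hq : q.IsHomogeneous d)
    (h : ∀ a : Fin n →₀ ℕ, a.degree = d → coeff a p = coeff a q) : p = q := by
  ext a
  by_cases ha : a.degree = d
  · exact h a ha
  · rw [hp.coeff_eq_zero ha, hq.coeff_eq_zero ha]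

theorem finrank_map_coeff {R : Type*} [Field R] (I : Ideal (MvPolynomial (Fin n) R)) (d : ℕ) :
    Module.finrank R ↥((piece I d).map (coeffMap R n d)) = Module.finrank R ↥(piece I d) := by
  have hinj : Function.Injective ((coeffMap R n d).domRestrict (piece I d)) := by
    rintro ⟨x, hx⟩ ⟨y, hy⟩ h
    refine Subtype.ext (eq_of_coeff hx.2 hy.2 fun a ha => ?_)
    exact congrFun h ⟨a, ha⟩
  rw [← LinearMap.range_domRestrict, LinearMap.finrank_range_of_inj hinj]

theorem finrank_lexPP {R : Type*} [Field R] (e c : ℕ) (I : Ideal (MvPolynomial (Fin n) R)) (d : ℕ) :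
    Module.finrank R ↥(Lex.lexPP e c I ⊓ homogeneousSubmodule (Fin n) R d) =
      {a : Fin n →₀ ℕ | Lex.inJ e c I a ∧ a.degree = d}.ncard := by
  have hpiece : Lex.lexPP e c I ⊓ homogeneousSubmodule (Fin n) R d =
      restrictSupport R {a | Lex.inJ e c I a ∧ a.degree = d} := by
    have h1 : Lex.lexPP e c I = restrictSupport R {a | Lex.inJ e c I a} :=
      (restrictSupport_eq_span R _).symm
    ext p
    simp only [h1, Submodule.mem_inf, mem_restrictSupport_iff, mem_homogeneousSubmodule,
      Set.subset_def, Finset.mem_coe, Set.mem_ofPred_eq]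
    constructor
    · rintro ⟨h2, h3⟩ a ha
      refine ⟨h2 a ha, ?_⟩
      by_contra hne
      exact MvPolynomial.mem_support_iff.1 ha (h3.coeff_eq_zero hne)
    · intro h
      refine ⟨fun a ha => (h a ha).1, fun a ha => ?_⟩
      have hd := (h a (MvPolynomial.mem_support_iff.2 ha)).2
      rwa [Finsupp.degree_eq_weight_one] at hd
  rw [hpiece, Module.finrank_eq_nat_card_basis (basisRestrictSupport R _), Nat.card_coe_set_eq]

theorem lexPP_mul {R : Type*} [Field R] {e c : ℕ} {I : Ideal (MvPolynomial (Fin n) R)}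
    (hstep : ∀ a, Lex.inJ e c I a → ∀ i, Lex.inJ e c I (a + Finsupp.single i 1))
    (g : MvPolynomial (Fin n) R) :
    ∀ p ∈ Lex.lexPP e c I, g * p ∈ Lex.lexPP e c I := by
  have hX : ∀ (i : Fin n), ∀ r ∈ Lex.lexPP e c I, r * X i ∈ Lex.lexPP e c I := by
    intro i r hr
    induction hr using Submodule.span_induction with
    | mem x hx =>
      obtain ⟨a, ha, rfl⟩ := hx
      refine Submodule.subset_span ⟨a + Finsupp.single i 1, hstep a ha i, ?_⟩
      simp [X, monomial_mul]
    | zero => rw [zero_mul]; exact zero_mem _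
    | add x y _ _ hx hy => rw [add_mul]; exact add_mem hx hy
    | smul r x _ hx => rw [smul_mul_assoc]; exact Submodule.smul_mem _ _ hx
  intro p hp
  induction g using MvPolynomial.induction_on generalizing p with
  | C r => rw [C_mul']; exact Submodule.smul_mem _ _ hp
  | add g h hg hh => rw [add_mul]; exact add_mem (hg p hp) (hh p hp)
  | mul_X g i hg => rw [mul_assoc, mul_comm (X i)]; exact hg _ (hX i p hp)

variable {K : Type u} [Field K] (V : ValuationSubring K)

/-- Coefficientwise inclusion of integral polynomials. -/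
abbrev incl : MvPolynomial (Fin n) V →+* MvPolynomial (Fin n) K := map V.subtype

/-- Coefficientwise reduction. -/
abbrev red : MvPolynomial (Fin n) V →+* MvPolynomial (Fin n) (ResidueField V) := map (residue V)

/-- The reduction of the integral elements of an ideal. -/
def redIdeal (I : Ideal (MvPolynomial (Fin n) K)) : Ideal (MvPolynomial (Fin n) (ResidueField V)) :=
  (I.comap (incl V)).map (red V)

theorem mem_redIdeal {I : Ideal (MvPolynomial (Fin n) K)}
    {u : MvPolynomial (Fin n) (ResidueField V)} :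
    u ∈ redIdeal V I ↔ ∃ q, incl V q ∈ I ∧ red V q = u :=
  Ideal.mem_map_iff_of_surjective _ (map_surjective _ residue_surjective)

theorem homogeneousComponent_map {R S : Type*} [CommRing R] [CommRing S] (φ : R →+* S)
    (q : MvPolynomial (Fin n) R) (d : ℕ) :
    homogeneousComponent d (map φ q) = map φ (homogeneousComponent d q) := by
  ext a
  simp only [coeff_homogeneousComponent, coeff_map]
  split_ifs <;> simp

theorem redIdeal_hom {I : Ideal (MvPolynomial (Fin n) K)}
    (hI : ∀ q ∈ I, ∀ d, homogeneousComponent d q ∈ I) :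
    ∀ q ∈ redIdeal V I, ∀ d, homogeneousComponent d q ∈ redIdeal V I := by
  intro u hu d
  obtain ⟨q, hq, rfl⟩ := (mem_redIdeal V).1 hu
  refine (mem_redIdeal V).2 ⟨homogeneousComponent d q, ?_, (homogeneousComponent_map _ _ _).symm⟩
  rw [incl, ← homogeneousComponent_map]
  exact hI _ hq d

theorem map_piece_redIdeal {I : Ideal (MvPolynomial (Fin n) K)}
    (hI : ∀ q ∈ I, ∀ d, homogeneousComponent d q ∈ I) (d : ℕ) :
    (piece (redIdeal V I) d).map (coeffMap (ResidueField V) n d) =
      redSub V ((piece I d).map (coeffMap K n d)) := by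
  classical
  ext u
  constructor
  · rintro ⟨x, ⟨hxI, hxd⟩, rfl⟩
    obtain ⟨q, hq, hqx⟩ := (mem_redIdeal V).1 hxI
    refine ⟨fun a => coeff a.1 (homogeneousComponent d q),
      ⟨incl V (homogeneousComponent d q), ⟨?_, (homogeneousComponent_isHomogeneous d q).map _⟩, ?_⟩,
      fun a => ?_⟩
    · rw [incl, ← homogeneousComponent_map]
      exact hI _ hq d
    · funext a
      exact coeff_map V.subtype _ _
    · show residue V (coeff a.1 (homogeneousComponent d q)) = coeff a.1 x
      rw [← hqx, coeff_homogeneousComponent, if_pos a.2]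
      exact (coeff_map (residue V) q a.1).symm
  · rintro ⟨v, ⟨x, ⟨hxI, hxd⟩, hxv⟩, hvu⟩
    set s := Fintype.ofFinite {a : Fin n →₀ ℕ // a.degree = d}
    set q : MvPolynomial (Fin n) V := ∑ a : {a : Fin n →₀ ℕ // a.degree = d}, monomial a.1 (v a)
    have hqd : q.IsHomogeneous d := IsHomogeneous.sum _ _ _ fun a _ => isHomogeneous_monomial _ a.2
    have hcoef : ∀ a : {a : Fin n →₀ ℕ // a.degree = d}, coeff a.1 q = v a := by
      intro a
      simp only [q, coeff_sum, coeff_monomial, Subtype.coe_inj]
      rw [Finset.sum_ite_eq' Finset.univ a v, if_pos (Finset.mem_univ a)]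
    have hqx : incl V q = x := by
      refine eq_of_coeff (hqd.map _) hxd fun a ha => ?_
      have h := congrFun hxv ⟨a, ha⟩
      simp only [incl, coeff_map, hcoef ⟨a, ha⟩]
      exact h.symm
    refine ⟨red V q, ⟨(mem_redIdeal V).2 ⟨q, hqx ▸ hxI, rfl⟩, hqd.map _⟩, ?_⟩
    funext a
    show coeff a.1 (red V q) = u a
    rw [← hvu a, ← hcoef a]
    exact coeff_map (residue V) q a.1

theorem finrank_redIdeal {I : Ideal (MvPolynomial (Fin n) K)}
    (hI : ∀ q ∈ I, ∀ d, homogeneousComponent d q ∈ I) (d : ℕ) :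
    Module.finrank (ResidueField V) ↥(piece (redIdeal V I) d) = Module.finrank K ↥(piece I d) := by
  rw [← finrank_map_coeff, map_piece_redIdeal V hI, finrank_redSub, finrank_map_coeff]

/-- EGH along a valuation subring of residue characteristic `p`. -/
theorem lex_of_reduction {p : ℕ} [Fact p.Prime] (hp : residue V (p : V) = 0) {c : ℕ} (hc : c ≤ n)
    (F : Fin c → MvPolynomial (Fin n) V) (hF : ∀ i, (F i).IsHomogeneous p)
    (hreg : ∀ i g, g * red V (F i) ∈ Ideal.span ((fun t => red V (F t)) '' Set.Iio i) →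
      g ∈ Ideal.span ((fun t => red V (F t)) '' Set.Iio i))
    (I : Ideal (MvPolynomial (Fin n) K)) (hI : ∀ q ∈ I, ∀ d, homogeneousComponent d q ∈ I)
    (hFI : ∀ i, incl V (F i) ∈ I) :
    (∀ g, ∀ q ∈ Lex.lexPP p c I, g * q ∈ Lex.lexPP p c I) ∧
      ∀ d, Module.finrank K ↥(Lex.lexPP p c I ⊓ homogeneousSubmodule (Fin n) K d) =
        Module.finrank K ↥(I.restrictScalars K ⊓ homogeneousSubmodule (Fin n) K d) := by
  have : CharP (ResidueField V) p :=
    (CharP.charP_iff_prime_eq_zero Fact.out).2 (by rw [← map_natCast (residue V), hp])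
  obtain ⟨hmul, hHF⟩ := Lex.result hc (fun i => red V (F i)) (fun i => (hF i).map _) hreg
    (redIdeal V I) (redIdeal_hom V hI) (fun i => (mem_redIdeal V).2 ⟨F i, hFI i, rfl⟩)
  have hadd : ∀ d, Lex.addCount p c (redIdeal V I) d = Lex.addCount p c I d := fun d => by
    show Module.finrank (ResidueField V) ↥(piece (redIdeal V I) d) - _ =
      Module.finrank K ↥(piece I d) - _
    rw [finrank_redIdeal V hI d]
  have hJ : ∀ a, Lex.inJ p c (redIdeal V I) a ↔ Lex.inJ p c I a := fun a => by
    simp only [Lex.inJ, hadd]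
  refine ⟨lexPP_mul fun a ha i => ?_, fun d => ?_⟩
  · have h := hmul (X i) (monomial a 1) (Submodule.subset_span ⟨a, (hJ a).2 ha, rfl⟩)
    rw [X, monomial_mul, one_mul, add_comm] at h
    have h' : monomial (a + Finsupp.single i 1) (1 : ResidueField V) ∈
        restrictSupport (ResidueField V) {b | Lex.inJ p c (redIdeal V I) b} := by
      rw [restrictSupport_eq_span]; exact h
    rw [mem_restrictSupport_iff] at h'
    exact (hJ _).1 (h' (by simp))
  · have h := hHF d
    rw [finrank_lexPP] at h ⊢
    simp only [hJ] at h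
    rw [h]
    exact finrank_redIdeal V hI d

end Vale.Agent.P200f
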